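import Vale.Agent.P154.Pois.DE.Data.Sl3.Tab0

/-!
# Generations 0 to 4
-/

namespace Vale.P154.PD.Data.Sl3

open Vale.P154.Lat Vale.P154.PD

/-- The start of segment 0. -/
def start0 : Nat × Nat := (18216744532409640328749054369039810337654995215096371448709968132392523157446890833069561677928987099839028251477649553989739375844244522680664358284181791925169614571339785049834669988410905284165841055260437799768066287638797252292551568346117054765108432060692492159476071532094476537690597443605565544874612704599238478091124021053058880839680012582912, 0)

/-- A law in segment 0. -/
def mid0_1 : Nat × Nat := (7747140379743000558794139428404407694717085662340408281189117249344276381455728765501255406242100113515357711155214571449270027948987697095013349020195660685010624668125424435426551866965209037999451493719284404697019027692992133826657924158788173935393437451347493629229578319050719882171783653593345017979739103797758681171503225137027599854720351193625, 0)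

/-- A law in segment 0. -/
def mid0_2 : Nat × Nat := (4402960499570402991345083786117699469920226999176645291829375283494155214936069636071332394379698002783132901841147853412867064473282152070853092992408737605282253664921243626661152882360892263539093757707968680435245596519191797473432203856009477143643007882855761873258196493873425828348637451903742797934949724971521474279479645214360962892259527587608, 0)

/-- A law in segment 0. -/
def mid0_3 : Nat × Nat := (2635204063350004466776220021001521796598097506628219965746609894365087920490977710131226228068337058441430152561021870602519922769902658181262303230253159267479375335081093233117426984719055532237215195094016245014270899102177462374712383581450603079175444967088380150057010743910604290282502892681682085223843800248281286076378626026891615872021293672400, 0)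

/-- A law in segment 0. -/
def fin0 : Nat × Nat := (1653007280554741873391769218821734939665512638652839039018851766793316083347061580108427171310760068608794444808638630341728196984292485197558784307998960609810820190041185036043411060653762745868496934802546640708458392313314567405206489342455607474988675951425967579455104947399374625801529922684768438941334158833688462138384384296390743542428625988219, 0)

theorem start_ok : pstartOk par0 start0.1 start0.2 = true := by decide +kernel

theorem step0_0 : pstepOk par0 nodeTab0 edgeTab0 start0.1 start0.2
    mid0_1.1 mid0_1.2 = true := by decide +kernel

theorem step0_1 : pstepOk par0 nodeTab0 edgeTab0 mid0_1.1 mid0_1.2
    mid0_2.1 mid0_2.2 = true := by decide +kernel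

theorem step0_2 : pstepOk par0 nodeTab0 edgeTab0 mid0_2.1 mid0_2.2
    mid0_3.1 mid0_3.2 = true := by decide +kernel

theorem step0_3 : pstepOk par0 nodeTab0 edgeTab0 mid0_3.1 mid0_3.2
    fin0.1 fin0.2 = true := by decide +kernel


end Vale.P154.PD.Data.Sl3
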