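import Vale.Agent.P154.Pois.DE.Data.Sl3.Tab0

/-!
# Generations 4 to 8
-/

namespace Vale.P154.PD.Data.Sl3

open Vale.P154.Lat Vale.P154.PD

/-- The start of segment 1. -/
def start1 : Nat × Nat := (1653007280554741873391769218821734939665512638652839039018851766793316083347061580108427171310760068608794444808638630341728196984292485197558784307998960609810820190041185036043411060653762745868496934802546640708458392313314567405206489342455607474988675951425967579455104947399374625801529922684768438941334158833688462138384384296390743542428625988219, 0)

/-- A law in segment 1. -/
def mid1_1 : Nat × Nat := (1071893536007024710041224633333454693964140351455962698335360400382841431158196501076067769985017006899475528522767415455435536585534426100207839904684833689092130721609517771196585844056567804968376405991779709565651136420540426267603343381510589863357154433930972154390397456146674094154362580086252640726105611208069808505451884869133906848780003914537, 0)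

/-- A law in segment 1. -/
def mid1_2 : Nat × Nat := (713672534696324582723480306995450796984418665635132212727959594221460440401099838150321408267452552370380510212321128670243469980246042962627010461812346612641678947065902497386202257781659096199480134520855639428453182235297270415024883312589937191506806974404751361956794879207815513967429594261114126052406182774769902094373706360702435689965933881548, 0)

/-- A law in segment 1. -/
def mid1_3 : Nat × Nat := (486448811222892635792524028783614858482647193977028483858166271657927812530178119166701937027679183115886889480998848520205082218563304035249384805083207767516569785165613097604903951132265589324410626076242646612635850608182563420710844061394176438360756711828388131286122395503136709881172681164184112231253173926902098114957918534376480521841119281175, 0)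

/-- A law in segment 1. -/
def fin1 : Nat × Nat := (338954910581294494644433647816056226135566282518670430674641052606480432417084146122014907632452151411920134035501505968140978928894061928284955377514668583913556582071937590716491939840054480149516843291140841271901634323756219876985253591069733347248018926962371745210305044665014025713068191613909792553082279181650971132621418176882360378587851558373, 0)

theorem step1_0 : pstepOk par0 nodeTab0 edgeTab0 start1.1 start1.2
    mid1_1.1 mid1_1.2 = true := by decide +kernel

theorem step1_1 : pstepOk par0 nodeTab0 edgeTab0 mid1_1.1 mid1_1.2
    mid1_2.1 mid1_2.2 = true := by decide +kernel

theorem step1_2 : pstepOk par0 nodeTab0 edgeTab0 mid1_2.1 mid1_2.2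
    mid1_3.1 mid1_3.2 = true := by decide +kernel

theorem step1_3 : pstepOk par0 nodeTab0 edgeTab0 mid1_3.1 mid1_3.2
    fin1.1 fin1.2 = true := by decide +kernel


end Vale.P154.PD.Data.Sl3
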