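import Vale.Agent.P154.Pois.DE.Data.Sl3.Tab0

/-!
# Generations 8 to 12
-/

namespace Vale.P154.PD.Data.Sl3

open Vale.P154.Lat Vale.P154.PD

/-- The start of segment 2. -/
def start2 : Nat × Nat := (338954910581294494644433647816056226135566282518670430674641052606480432417084146122014907632452151411920134035501505968140978928894061928284955377514668583913556582071937590716491939840054480149516843291140841271901634323756219876985253591069733347248018926962371745210305044665014025713068191613909792553082279181650971132621418176882360378587851558373, 0)

/-- A law in segment 2. -/
def mid2_1 : Nat × Nat := (241230222503045363352958076683569897633772593453401631801021688834176570152713821500083170443918600429203601086922171544497184320679531176571996387974721189765601525898806931934738636433507899305703109641102967456707043425829325149207077341267938836104326593396803910280390891997598245437129170052639677335876127471291575875973128125701656067958213153483, 0)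

/-- A law in segment 2. -/
def mid2_2 : Nat × Nat := (175227474022831288218681766720267204429133212192917869809298253425197547972679720917395711991867926659571521601747989050028140785920885159704545412741445933164509557123024115853407313320059562219552682957141921113750888481661571066983871025874462705830466879349401489750926021956668874969476357115662027632736531721260950466610593458159793597345124097859, 0)

/-- A law in segment 2. -/
def mid2_3 : Nat × Nat := (129831974389921288309075392433393817280765636928039839610993852232477802642593027529673930096582488725345427043893345326365314669243286958353648876243601456429095476514627516102167007731848268324060478731926074369911929093758551117397661359293060366891560189347230872080241216569697115803611463932858506536472279109527211320607823983339489217219366385813, 0)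

/-- A law in segment 2. -/
def fin2 : Nat × Nat := (98062903425188214363677608601223195600353426158429682765453071672189472506667359442756229425312290505643664380002523512968196539204557388359250468921043069431584246072184091112447443123256807923045396950481238078934047638290115837683101082115692930388138646511356868923488517296242414203941377447007561962537368874324094011271017024157021802253785406919, 0)

theorem step2_0 : pstepOk par0 nodeTab0 edgeTab0 start2.1 start2.2
    mid2_1.1 mid2_1.2 = true := by decide +kernel

theorem step2_1 : pstepOk par0 nodeTab0 edgeTab0 mid2_1.1 mid2_1.2
    mid2_2.1 mid2_2.2 = true := by decide +kernel

theorem step2_2 : pstepOk par0 nodeTab0 edgeTab0 mid2_2.1 mid2_2.2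
    mid2_3.1 mid2_3.2 = true := by decide +kernel

theorem step2_3 : pstepOk par0 nodeTab0 edgeTab0 mid2_3.1 mid2_3.2
    fin2.1 fin2.2 = true := by decide +kernel


end Vale.P154.PD.Data.Sl3
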