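import Vale.Agent.P154.Pois.DE.Data.Sl3.Tab0

/-!
# Generations 12 to 16
-/

namespace Vale.P154.PD.Data.Sl3

open Vale.P154.Lat Vale.P154.PD

/-- The start of segment 3. -/
def start3 : Nat × Nat := (98062903425188214363677608601223195600353426158429682765453071672189472506667359442756229425312290505643664380002523512968196539204557388359250468921043069431584246072184091112447443123256807923045396950481238078934047638290115837683101082115692930388138646511356868923488517296242414203941377447007561962537368874324094011271017024157021802253785406919, 0)

/-- A law in segment 3. -/
def mid3_1 : Nat × Nat := (75459625427232955662964457098352807843857636013825108726141328121190758423265143251723121373569332940612922912202613893580762141230517660237669053332969152530335719678764303502511425917853331798851021352594004563204098485328454580493086550171244771783100894900753630346672169905205874411482002034367131274980025993788352456604205005957349386089166728793, 0)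

/-- A law in segment 3. -/
def mid3_2 : Nat × Nat := (59121344086211020778102683638922387330458462369880947344901813133622629126880493191803267204350705912048153267159459646160788248502651621036379666762948532572828939115044587480970316542629648491640022918264284982844508675534025869616804818014833572152547099253897702386477007141253474312669546583374035849217053309273466918552365109827144009066580279927, 0)

/-- A law in segment 3. -/
def mid3_3 : Nat × Nat := (47133685033634802346118870761737026491420940743676380042547342185887229074613797380329917732503944860137774243956213609112423431274896362296239888543068732359499313361711103924890573485414979427583114129439653388603971733512391104111281400408741381386660737884649502281353393735796867237890571832291304032548661414038027029092292030745529907537751306435, 0)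

/-- A law in segment 3. -/
def fin3 : Nat × Nat := (38211443475955243284094335922321986752771942855691214845490231306138459359232448278362019170155922634935344844630890789446654242915595970901957821883250254264073607696703546892260246434365288572495180018423223195833845104518182334401732417021323544945323304465118908356734243881680458795086495620731558616568416328703533909126129989965228153194111916160, 0)

theorem step3_0 : pstepOk par0 nodeTab0 edgeTab0 start3.1 start3.2
    mid3_1.1 mid3_1.2 = true := by decide +kernel

theorem step3_1 : pstepOk par0 nodeTab0 edgeTab0 mid3_1.1 mid3_1.2
    mid3_2.1 mid3_2.2 = true := by decide +kernel

theorem step3_2 : pstepOk par0 nodeTab0 edgeTab0 mid3_2.1 mid3_2.2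
    mid3_3.1 mid3_3.2 = true := by decide +kernel

theorem step3_3 : pstepOk par0 nodeTab0 edgeTab0 mid3_3.1 mid3_3.2
    fin3.1 fin3.2 = true := by decide +kernel


end Vale.P154.PD.Data.Sl3
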