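import Vale.Agent.P154.Pois.DE.Data.Sl3.Tab0

/-!
# Generations 16 to 20
-/

namespace Vale.P154.PD.Data.Sl3

open Vale.P154.Lat Vale.P154.PD

/-- The start of segment 4. -/
def start4 : Nat × Nat := (38211443475955243284094335922321986752771942855691214845490231306138459359232448278362019170155922634935344844630890789446654242915595970901957821883250254264073607696703546892260246434365288572495180018423223195833845104518182334401732417021323544945323304465118908356734243881680458795086495620731558616568416328703533909126129989965228153194111916160, 0)

/-- A law in segment 4. -/
def mid4_1 : Nat × Nat := (31479941870473379249231991995174101047109022632210060422520727086150511314916424470781406857164771935836681990602303379750208947741146738612609722010528328707367064506062469914701642378055139526156451730210494641651751159389000154886818254448361103027639497363063845707153309674312476037366263403181544950431266675152503711664930737199730105658048946115, 0)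

/-- A law in segment 4. -/
def mid4_2 : Nat × Nat := (26336335532105755413922075867522826532601076472751572925916337375023333314923685170499470462782952571675623739510972724942194502128417484706329996989331700524317882699264418301172588033068954132486908241429589119176531309665491045644028930263009451006637869786579892496563987977594410590073621074215975337920005074570547108734588322478465847053145428535, 0)

/-- A law in segment 4. -/
def mid4_3 : Nat × Nat := (22357097612501240352791840141444985208951840863384496508860830824316224208018057823063727918123304977714810292487706304515273525493734911013376082897846701107034920672744303379158044935660219263005401452347682230967579078928731353737607888640102572164176448419471756740546406810186497423971769149311393976489874197749672153534924059798843968729231497478, 0)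

/-- A law in segment 4. -/
def fin4 : Nat × Nat := (19243349438751549422815309453486771870660021477789469701102463127848200417101753971362096640305563960222741188292256937436731607604857164850378014768986462736983378263605491031206743493090760950957129810847643549693194159641156376442092768478905911833062319521755468507545097129617001977011155225441994249626491540891068641541542363178740361452141791101, 0)

theorem step4_0 : pstepOk par0 nodeTab0 edgeTab0 start4.1 start4.2
    mid4_1.1 mid4_1.2 = true := by decide +kernel

theorem step4_1 : pstepOk par0 nodeTab0 edgeTab0 mid4_1.1 mid4_1.2
    mid4_2.1 mid4_2.2 = true := by decide +kernel

theorem step4_2 : pstepOk par0 nodeTab0 edgeTab0 mid4_2.1 mid4_2.2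
    mid4_3.1 mid4_3.2 = true := by decide +kernel

theorem step4_3 : pstepOk par0 nodeTab0 edgeTab0 mid4_3.1 mid4_3.2
    fin4.1 fin4.2 = true := by decide +kernel


end Vale.P154.PD.Data.Sl3
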