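import Vale.Agent.P154.Pois.DE.Data.Sl3.Switch0
import Vale.Agent.P154.Pois.DE.Data.Sl3.Tab0
import Vale.Agent.P154.Pois.DE.Data.Sl3.Tab1

/-!
# Change of phase at generation 20
-/

namespace Vale.P154.PD.Data.Sl3

open Vale.P154.Lat Vale.P154.PD

/-- The start of segment 5. -/
def start5 : Nat × Nat := (19243349438751549422815309453486771870660021477789469701102463127848200417101753971362096640305563960222741188292256937436731607604857164850378014768986462736983378263605491031206743493090760950957129810847643549693194159641156376442092768478905911833062319521755468507545097129617001977011155225441994249626491540891068641541542363178740361452141791101, 0)

/-- A law in segment 5. -/
def fin5 : Nat × Nat := (32967901650378868595049881664603309218902929568140370748159838448747209844484433564727300024879205716026481614664546789682249022943315435144525375487213173963893587046828386451475620589752713451062761584136586376391183406822399860883981151159362827188488565345031247155074366674530541988466652030495158301379982453938082705509172301034301134808404388264078831828635411373764415197529960253062702386155357120386825012686728720021752640381977962890950654018766238933865307580461474703036174153504339693506740115932099053250921430656095783934629554002767423034028168781525992486045382769585584855237446202958452655362166399143117316498248422146189429428900923854831101097709699132775165535625177637031678945853672510618187465146405547342964523013482977616301834694066348685446880131638461509117669096142530462398661709234439110641480596483464698468100639040275411709711843726482649605440220760821246134290327931136733045570461962655128857072623964046816021093394471250145941539556010410341059055349941324702242649218414415841005803910032885665135028406537539880046798299986306374935705910885406140751859357526596503356822526588752674954338019110671505287834225278814877706388986402589493117,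 0)

theorem sw5 : pswOk par0 par1 swTab0 start5.1 start5.2 fin5.1 fin5.2 = true := by
  decide +kernel

end Vale.P154.PD.Data.Sl3
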