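import Vale.Agent.P154.Pois.DE.Comp

/-!
# Change from phase 0
-/

namespace Vale.P154.PD.Data.Sl3

open Vale.P154.Lat Vale.P154.PD

/-- Targets of the classes of phase 0 in phase 1. -/
def swTab0 : List (List (Nat × Nat × Nat)) :=
  [[(0, 0, 1099511627776)],
    [(3, 0, 1041385772351), (6, 0, 57979070361)],
    [(5, 0, 1038501047220), (9, 0, 60861540545)],
    [(10, 0, 983114504727), (15, 0, 116120087195)],
    [(12, 0, 980391195849), (18, 0, 60692949020), (17, 0, 58140123334)],
    [(14, 0, 977675430764), (20, 0, 121555424888)],
    [(21, 0, 924696522977), (27, 0, 174424396348)],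
    [(22, 0, 922135036764), (29, 0, 60524824507), (28, 0, 116442642993)],
    [(24, 0, 919580646080), (31, 0, 121218706259), (30, 0, 58301623677)],
    [(26, 0, 917033331271), (33, 0, 182083050195)],
    [(34, 0, 861338658399), (40, 0, 120882920369), (39, 0, 116766094779)],
    [(36, 0, 858952678736), (42, 0, 181578665015), (41, 0, 58463572631)],
    [(38, 0, 856573308434), (44, 0, 242445807209)],
    [(45, 0, 798505856314), (49, 0, 241774212175), (48, 0, 58625971444)],
    [(47, 0, 796293928734), (51, 0, 302645080286)],
    [(52, 0, 738238748081), (56, 0, 301806728263), (55, 0, 58788821365)],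
    [(54, 0, 736193765399), (58, 0, 362682247434)],
    [(59, 0, 678149930025), (63, 0, 361677587469), (62, 0, 58952123646)],
    [(61, 0, 676271398363), (65, 0, 422558680353)],
    [(66, 0, 618237984821), (70, 0, 421388157693), (69, 0, 59115879545)],
    [(68, 0, 616525414226), (72, 0, 482275744475)],
    [(73, 0, 558501501787), (77, 0, 480939800584), (76, 0, 59280090322)],
    [(75, 0, 556954406214), (79, 0, 541834798996)],
    [(80, 0, 498939076847), (83, 0, 540333871575)],
    [(82, 0, 497556974141), (85, 0, 601237196924)],
    [(88, 0, 599571719924)],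
    [(87, 0, 438331724364), (89, 0, 660484285108)]]

end Vale.P154.PD.Data.Sl3
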